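import Vale.Agent.P226_h5.Full

namespace Vale.Agent.Results.P226.Propeller

open _root_.P226

/-- The Gaussian propeller conjecture: for all `d`, `k`, every measurable partition of `ℝ^d` into
`k` cells has `∑ |z(A_i)|² ≤ 9/(8π)`; and `M(d,k) = 9/(8π)` for `d ≥ 2`, `k ≥ 3`, attained. -/
theorem result :
    (∀ (d k : ℕ) (A : Fin k → Set (EuclideanSpace ℝ (Fin d))), IsPartition A →
      propF A ≤ 9 / (8 * Real.pi)) ∧
    (∀ (d k : ℕ), 2 ≤ d → 3 ≤ k → M d k = 9 / (8 * Real.pi) ∧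
      ∃ A : Fin k → Set (EuclideanSpace ℝ (Fin d)), IsPartition A ∧
        propF A = 9 / (8 * Real.pi)) :=
  ⟨fun _ _ A hA => propF_le A hA, fun _ _ hd hk => ⟨M_eq hd hk, propF_attained hd hk⟩⟩

end Vale.Agent.Results.P226.Propeller
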