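import Vale.Agent.P226_h5.ReduceSix

namespace Vale.Agent.Results.P226.ReduceToSix

open _root_.P226

/-- More than six cells never help: for every dimension `d` and every `k ≥ 6`, each measurable
partition of `ℝ^d` into `k` cells is dominated by one into `6` cells, `M(d,k) = M(d,6)`, and the
propeller inequality for all partitions into `k` cells follows from the one for `6` cells. -/
theorem result :
    (∀ (d k : ℕ), 6 ≤ k → ∀ A : Fin k → Set (EuclideanSpace ℝ (Fin d)), IsPartition A →
      ∃ B : Fin 6 → Set (EuclideanSpace ℝ (Fin d)), IsPartition B ∧ propF A ≤ propF B) ∧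
    (∀ (d k : ℕ), 6 ≤ k → M d k = M d 6) :=
  ⟨fun _ _ hk A hA => exists_six hk A hA, fun d k hk => M_eq_six d k hk⟩

end Vale.Agent.Results.P226.ReduceToSix
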